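import Vale.Agent.P174.MathlibUsed
import Vale.Agent.P174.Bdl.D
import Vale.Agent.P174.Bdl.All

namespace Vale.Agent.Results.P174.AllInOne

open Vale.Agent.P174

universe u

theorem result (k : Type) [Field k] (G : Type u) [Group G] :
    (HowieOver k G ↔
      ∀ H : Subgroup G, H.FG → (∀ f : H →* Multiplicative k, f = 1) → HowieOver k H) ∧
    ((∀ H : Subgroup G, H.FG → (∀ f : H →* Multiplicative k, f = 1) → Hyperlinear H) →
      HowieOver k G) ∧
    (∀ (N : Subgroup G) [N.Normal], HowieOver ℚ N → LocallyIndicable (G ⧸ N) →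
      HowieOver ℚ G) ∧
    (∀ (m n : ℕ) (w : Fin m → Words G n), FullRank k w →
      ∀ g : G, Monoid.Coprod.inl g ∈ Subgroup.normalClosure (Set.range w) →
      ∃ (P : Subgroup G) (hgP : g ∈ P), P.FG ∧ (∀ f : P →* Multiplicative k, f = 1) ∧
        (∀ (H : Type u) [Group H] (ρ : P →* H), Hyperlinear H → ρ ⟨g, hgP⟩ = 1) ∧
        ∃ (m' n' : ℕ) (w' : Fin m' → Words P n'), FullRank k w' ∧
          Monoid.Coprod.inl (⟨g, hgP⟩ : P) ∈ Subgroup.normalClosure (Set.range w')) :=
  ⟨howieOver_iff_local k G, howie_combined unitarySolve k G,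
    fun N _ hN hQ => howie_extension G N hN hQ,
    fun _ _ w hw g hg => full_localization w hw g hg⟩

end Vale.Agent.Results.P174.AllInOne
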