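import Vale.Agent.P174.MathlibUsed
import Vale.Agent.P174.Bdl.D
import Vale.Agent.P174.Bdl.All

namespace Vale.Agent.Results.P174.RelativeKill

open Vale.Agent.P174

universe u v

theorem result (k : Type) [Field k] (G : Type u) [Group G] (Q : Type v) [Group Q]
    {m n : ℕ} (w : Fin m → Words G n) (φ : Words G n →* Q) (hφ : ∀ i, φ (w i) = 1) :
    (∃! D : Words G n → Fin n → MonoidAlgebra k Q, IsFox φ D) ∧
    ∀ D : Words G n → Fin n → MonoidAlgebra k Q, IsFox φ D →
      LinearIndependent (MonoidAlgebra k Q) (fun i => D (w i)) →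
      ((∀ P : Subgroup G, P.FG → (∀ x ∈ P, φ (Monoid.Coprod.inl x) = 1) →
        (∀ f : P →* Multiplicative k, f = 1) → Hyperlinear P) → SolvableOver w) ∧
      (∀ g : G, Monoid.Coprod.inl g ∈ Subgroup.normalClosure (Set.range w) →
        ∃ (P : Subgroup G) (hgP : g ∈ P), P.FG ∧ (∀ x ∈ P, φ (Monoid.Coprod.inl x) = 1) ∧
          (∀ f : P →* Multiplicative k, f = 1) ∧
          (∀ (H : Type u) [Group H] (ρ : P →* H), Hyperlinear H → ρ ⟨g, hgP⟩ = 1) ∧
          ∃ (m' n' : ℕ) (w' : Fin m' → Words P n'), FullRank k w' ∧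
            Monoid.Coprod.inl (⟨g, hgP⟩ : P) ∈ Subgroup.normalClosure (Set.range w')) := by
  refine ⟨⟨foxRow k φ, isFox_foxRow φ, fun D hD => isFox_unique φ D _ hD (isFox_foxRow φ)⟩, ?_⟩
  intro D hD hind
  rw [isFox_unique φ D _ hD (isFox_foxRow φ)] at hind
  exact ⟨relative_hyperlinear w φ hφ hind, fun g hg => relative_kill w φ hφ hind g hg⟩

end Vale.Agent.Results.P174.RelativeKill
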